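import Vale.Agent.P232.Competitors.Volumes

/-! # P232: flux out of a tube or a ball -/

namespace Vale.Agent.P232

noncomputable section

open MeasureTheory Set Filter
open scoped Topology

/-- Integration by parts against a truncated parabola. -/
lemma kink {g g' : ℝ → ℝ} (hg : ∀ x, HasDerivAt g (g' x) x) (hg' : Continuous g')
    (hper : g 1 = g 0) {c σ : ℝ} (hc : c = 0 ∨ c = 1 ∧ σ < 1 / 4) :
    ∫ x in (0 : ℝ)..1, max (σ - c * (x - 1 / 2) ^ 2) 0 * g' x =
      ∫ x in (0 : ℝ)..1, if c * (x - 1 / 2) ^ 2 < σ then 2 * c * (x - 1 / 2) * g x else 0 := by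
  rcases hc with rfl | ⟨rfl, hσ⟩
  · simp only [zero_mul, sub_zero, mul_zero, ite_self, intervalIntegral.integral_zero,
      intervalIntegral.integral_const_mul, integral_line hg hg', hper, sub_self]
  simp only [one_mul, mul_one]
  have hgc : Continuous g := continuous_iff_continuousAt.2 fun x => (hg x).continuousAt
  set T : Set ℝ := {x | (x - 1 / 2) ^ 2 = σ}
  have hT : T.Countable := ((Set.toFinite {1 / 2 - Real.sqrt σ, 1 / 2 + Real.sqrt σ}).subset
    fun x (hx : _ = σ) => by
      have h2 : (x - 1 / 2) ^ 2 = Real.sqrt σ ^ 2 := by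
        rw [Real.sq_sqrt (hx ▸ sq_nonneg _), hx]
      rcases sq_eq_sq_iff_eq_or_eq_neg.1 h2 with h | h
      · exact Or.inr (by simp; linarith)
      · exact Or.inl (by linarith)).countable
  set G : ℝ → ℝ := fun x => max (σ - (x - 1 / 2) ^ 2) 0 * g x
  set B : ℝ → ℝ := fun x => if (x - 1 / 2) ^ 2 < σ then 2 * (x - 1 / 2) * g x else 0
  set A : ℝ → ℝ := fun x => max (σ - (x - 1 / 2) ^ 2) 0 * g' x
  have iA : IntervalIntegrable A volume 0 1 :=
    (Continuous.mul (by fun_prop) hg').intervalIntegrable _ _
  have iB : IntervalIntegrable B volume 0 1 := by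
    rw [intervalIntegrable_iff_integrableOn_Ioc_of_le zero_le_one]
    exact ((((by fun_prop : Continuous fun x : ℝ => 2 * (x - 1 / 2)).mul
      hgc).integrableOn_Ioc).indicator
        (isOpen_lt (f := fun x : ℝ => (x - 1 / 2) ^ 2) (g := fun _ => σ) (by fun_prop)
          continuous_const).measurableSet).congr_fun (fun x _ => by
          simp only [Set.indicator_apply, mem_ofPred_eq, B, Pi.mul_apply]) measurableSet_Ioc
  have hd : ∀ x ∈ Ioo (0 : ℝ) 1 \ T, HasDerivAt G (A x - B x) x := fun x hx => by
    rcases lt_or_gt_of_ne (show (x - 1 / 2) ^ 2 ≠ σ from hx.2) with h | h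
    · have hp : HasDerivAt (fun y => (σ - (y - 1 / 2) ^ 2) * g y)
          (-(2 * (x - 1 / 2)) * g x + (σ - (x - 1 / 2) ^ 2) * g' x) x := by
        refine HasDerivAt.mul ?_ (hg x)
        exact ((((hasDerivAt_id x).sub_const (1 / 2)).pow 2).const_sub σ).congr_deriv (by simp)
      refine (hp.congr_of_eventuallyEq ?_).congr_deriv ?_
      · filter_upwards [(isOpen_lt (by fun_prop : Continuous fun y : ℝ => (y - 1 / 2) ^ 2)
          continuous_const).mem_nhds h] with y (hy : _ < σ)
        show max (σ - (y - 1 / 2) ^ 2) 0 * g y = _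
        rw [max_eq_left (sub_nonneg.2 hy.le)]
      · simp only [A, B, if_pos h, max_eq_left (sub_nonneg.2 h.le)]
        ring
    · refine ((hasDerivAt_const x (0 : ℝ)).congr_of_eventuallyEq ?_).congr_deriv ?_
      · filter_upwards [(isOpen_lt continuous_const
          (by fun_prop : Continuous fun y : ℝ => (y - 1 / 2) ^ 2)).mem_nhds h] with y (hy : σ < _)
        show max (σ - (y - 1 / 2) ^ 2) 0 * g y = _
        rw [max_eq_right (sub_nonpos.2 hy.le), zero_mul]
      · simp only [A, B, if_neg (not_lt.2 h.le), max_eq_right (sub_nonpos.2 h.le)]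
        ring
  have := integral_eq_of_hasDerivAt_off_countable_of_le G (fun x => A x - B x) zero_le_one hT
    (Continuous.mul (by fun_prop) hgc).continuousOn hd (iA.sub iB)
  rw [intervalIntegral.integral_sub iA iB] at this
  have hend : max (σ - ((1 : ℝ) - 1 / 2) ^ 2) 0 = 0 ∧ max (σ - ((0 : ℝ) - 1 / 2) ^ 2) 0 = 0 :=
    ⟨max_eq_right (by linarith [show ((1 : ℝ) - 1 / 2) ^ 2 = 1 / 4 by norm_num]),
      max_eq_right (by linarith [show ((0 : ℝ) - 1 / 2) ^ 2 = 1 / 4 by norm_num])⟩
  simp only [G, hend.1, hend.2, zero_mul, sub_self] at this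
  linarith

variable {φ : ℝ × ℝ × ℝ → ℝ × ℝ × ℝ} {a t : ℝ}

/-- The radial component of a field. -/
def radial (a : ℝ) (φ : ℝ × ℝ × ℝ → ℝ × ℝ × ℝ) (p : ℝ × ℝ × ℝ) : ℝ :=
  2 * a * (p.1 - 1 / 2) * (φ p).1 +
    (2 * (p.2.1 - 1 / 2) * (φ p).2.1 + 2 * (p.2.2 - 1 / 2) * (φ p).2.2)

lemma continuous_radial (h : Field φ) (a : ℝ) : Continuous (radial a φ) := by
  have := h.smooth.continuous
  unfold radial
  fun_prop

lemma integrableOn_level_ite {F : ℝ × ℝ × ℝ → ℝ} (hF : Continuous F) (a t : ℝ) :
    IntegrableOn (fun p => if quad a p < t then F p else 0) cube :=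
  ((integrableOn_cube_of_continuous hF).indicator
    (isOpen_lt (g := fun _ => t) (continuous_quad a) continuous_const).measurableSet).congr_fun
    (fun p _ => by
      by_cases h : quad a p < t <;> simp [h]) measurableSet_cube

/-- The truncated weight turns the divergence into the radial component. -/
lemma integral_cut_divg (h : Field φ) (ha : a = 0 ∨ a = 1) (ht : t < 1 / 4) :
    ∫ p in cube, max (t - quad a p) 0 * divg φ p =
      ∫ p in cube, if quad a p < t then radial a φ p else 0 := by
  have hφ := h.smooth.continuous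
  have hm : Continuous fun p => max (t - quad a p) 0 :=
    (continuous_const.sub (continuous_quad a)).max continuous_const
  have d1 := (h.continuous_apply e₁).fst
  have d2 := (h.continuous_apply e₂).snd.fst
  have d3 := (h.continuous_apply e₃).snd.snd
  set r1 : ℝ × ℝ × ℝ → ℝ := fun p => 2 * a * (p.1 - 1 / 2) * (φ p).1
  set r2 : ℝ × ℝ × ℝ → ℝ := fun p => 2 * (p.2.1 - 1 / 2) * (φ p).2.1
  set r3 : ℝ × ℝ × ℝ → ℝ := fun p => 2 * (p.2.2 - 1 / 2) * (φ p).2.2
  have c1 : Continuous r1 := by fun_prop
  have c2 : Continuous r2 := by fun_prop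
  have c3 : Continuous r3 := by fun_prop
  have h1 : ∫ p in cube, max (t - quad a p) 0 * (fderiv ℝ φ p e₁).1 =
      ∫ p in cube, if quad a p < t then r1 p else 0 := by
    rw [setIntegral_cube_x (integrableOn_cube_of_continuous (F := fun p => max (t - quad a p) 0 * (fderiv ℝ φ p e₁).1) (hm.mul d1)),
      setIntegral_cube_x (integrableOn_level_ite c1 a t)]
    refine integral_congr_ae (Eventually.of_forall fun q => ?_)
    set σ := t - ((q.1 - 1 / 2) ^ 2 + (q.2 - 1 / 2) ^ 2)
    have e : ∀ x : ℝ, t - quad a (x, q) = σ - a * (x - 1 / 2) ^ 2 := fun x => by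
      simp only [quad, σ]; ring
    have e' : ∀ x : ℝ, quad a (x, q) < t ↔ a * (x - 1 / 2) ^ 2 < σ := fun x => by
      rw [← sub_pos, e, sub_pos]
    simp only [integral_unitVol, e, e', r1]
    exact kink (h.line_x q) (d1.comp (continuous_id.prodMk continuous_const)) (h.per_x q)
      (ha.imp_right fun h1 => ⟨h1, by
        simp only [σ]; nlinarith [sq_nonneg (q.1 - 1 / 2), sq_nonneg (q.2 - 1 / 2)]⟩)
  have hnn : ∀ x : ℝ, 0 ≤ a * (x - 1 / 2) ^ 2 := fun x => by
    rcases ha with rfl | rfl <;> simp [sq_nonneg]
  have h2 : ∫ p in cube, max (t - quad a p) 0 * (fderiv ℝ φ p e₂).2.1 =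
      ∫ p in cube, if quad a p < t then r2 p else 0 := by
    rw [setIntegral_cube_y (integrableOn_cube_of_continuous (F := fun p => max (t - quad a p) 0 * (fderiv ℝ φ p e₂).2.1) (hm.mul d2)),
      setIntegral_cube_y (integrableOn_level_ite c2 a t)]
    refine integral_congr_ae (Eventually.of_forall fun x => ?_)
    refine integral_congr_ae (Eventually.of_forall fun z => ?_)
    set σ := t - a * (x - 1 / 2) ^ 2 - (z - 1 / 2) ^ 2
    have e : ∀ y : ℝ, t - quad a (x, y, z) = σ - 1 * (y - 1 / 2) ^ 2 := fun y => by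
      simp only [quad, σ]; ring
    have e' : ∀ y : ℝ, quad a (x, y, z) < t ↔ 1 * (y - 1 / 2) ^ 2 < σ := fun y => by
      rw [← sub_pos, e, sub_pos]
    simp only [integral_unitVol, e, e', r2]
    have hk := kink (c := 1) (σ := σ) (h.line_y x z)
      (d2.comp (continuous_const.prodMk (continuous_id.prodMk continuous_const))) (h.per_y x z)
      (Or.inr ⟨rfl, by simp only [σ]; nlinarith [hnn x, sq_nonneg (z - 1 / 2)]⟩)
    simpa only [mul_one, one_mul, id, Function.comp_apply] using hk
  have h3 : ∫ p in cube, max (t - quad a p) 0 * (fderiv ℝ φ p e₃).2.2 =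
      ∫ p in cube, if quad a p < t then r3 p else 0 := by
    rw [setIntegral_cube_z (integrableOn_cube_of_continuous (F := fun p => max (t - quad a p) 0 * (fderiv ℝ φ p e₃).2.2) (hm.mul d3)),
      setIntegral_cube_z (integrableOn_level_ite c3 a t)]
    refine integral_congr_ae (Eventually.of_forall fun x => ?_)
    refine integral_congr_ae (Eventually.of_forall fun y => ?_)
    set σ := t - a * (x - 1 / 2) ^ 2 - (y - 1 / 2) ^ 2
    have e : ∀ z : ℝ, t - quad a (x, y, z) = σ - 1 * (z - 1 / 2) ^ 2 := fun z => by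
      simp only [quad, σ]; ring
    have e' : ∀ z : ℝ, quad a (x, y, z) < t ↔ 1 * (z - 1 / 2) ^ 2 < σ := fun z => by
      rw [← sub_pos, e, sub_pos]
    simp only [integral_unitVol, e, e', r3]
    have hk := kink (c := 1) (σ := σ) (h.line_z x y)
      (d3.comp (continuous_const.prodMk (continuous_const.prodMk continuous_id))) (h.per_z x y)
      (Or.inr ⟨rfl, by simp only [σ]; nlinarith [hnn x, sq_nonneg (y - 1 / 2)]⟩)
    simpa only [mul_one, one_mul, id, Function.comp_apply] using hk
  have iA : ∀ {d : ℝ × ℝ × ℝ → ℝ}, Continuous d →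
      IntegrableOn (fun p => max (t - quad a p) 0 * d p) cube := fun hd =>
    integrableOn_cube_of_continuous (hm.mul hd)
  have iA12 : IntegrableOn (fun p => max (t - quad a p) 0 * (fderiv ℝ φ p e₁).1 +
      max (t - quad a p) 0 * (fderiv ℝ φ p e₂).2.1) cube := (iA d1).add (iA d2)
  have iB := fun {r : ℝ × ℝ × ℝ → ℝ} (hr : Continuous r) => integrableOn_level_ite hr a t
  have iB23 : IntegrableOn (fun p => (if quad a p < t then r2 p else 0) +
      if quad a p < t then r3 p else 0) cube := (iB c2).add (iB c3)
  have e : ∀ p, (if quad a p < t then radial a φ p else 0) =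
      (if quad a p < t then r1 p else 0) +
        ((if quad a p < t then r2 p else 0) + if quad a p < t then r3 p else 0) := fun p => by
    split_ifs <;> simp [radial, r1, r2, r3]
  simp only [e, divg, mul_add]
  rw [integral_add iA12 (iA d3), integral_add (iA d1) (iA d2), integral_add (iB c1) iB23,
    integral_add (iB c2) (iB c3), h1, h2, h3, add_assoc]

lemma abs_radial_le (h : Field φ) (ha : a = 0 ∨ a = 1) (p : ℝ × ℝ × ℝ) :
    |radial a φ p| ≤ 2 * Real.sqrt (quad a p) := by
  have hb := h.bound p
  have hq : 0 ≤ quad a p := by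
    rcases ha with rfl | rfl <;> simp only [quad] <;> positivity
  refine abs_le_of_sq_le_sq ?_ (by positivity)
  rw [mul_pow, Real.sq_sqrt hq]
  simp only [radial, quad]
  set X := p.1 - 1 / 2
  set Y := p.2.1 - 1 / 2
  set Z := p.2.2 - 1 / 2
  set u := (φ p).1
  set v := (φ p).2.1
  set w := (φ p).2.2
  rcases ha with rfl | rfl
  · nlinarith [mul_le_mul_of_nonneg_left hb (add_nonneg (sq_nonneg Y) (sq_nonneg Z)),
      sq_nonneg (Y * w - Z * v), sq_nonneg u,
      mul_nonneg (add_nonneg (sq_nonneg Y) (sq_nonneg Z)) (sq_nonneg u)]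
  · nlinarith [mul_le_mul_of_nonneg_left hb
      (add_nonneg (sq_nonneg X) (add_nonneg (sq_nonneg Y) (sq_nonneg Z))),
      sq_nonneg (X * v - Y * u), sq_nonneg (X * w - Z * u), sq_nonneg (Y * w - Z * v)]

/-- The flux out of a level set is at most twice the root of the level times the growth of volume. -/
theorem flux_le (h : Field φ) (ha : a = 0 ∨ a = 1) {s W : ℝ} (hs4 : s < 1 / 4)
    (hW : HasDerivWithinAt (fun t => vol {p | quad a p < t}) W (Ioi s) s) :
    ∫ p in {p | quad a p < s} ∩ cube, divg φ p ≤ 2 * Real.sqrt s * W := by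
  obtain ⟨M, hM⟩ := ((isCompact_Icc.prod (isCompact_Icc.prod isCompact_Icc) :
    IsCompact (Icc (0 : ℝ) 1 ×ˢ (Icc (0 : ℝ) 1 ×ˢ Icc (0 : ℝ) 1))).exists_bound_of_continuousOn
      h.continuous_divg.continuousOn)
  have hM' : ∀ p ∈ cube, |divg φ p| ≤ M := fun p hp => hM p
    ⟨Ico_subset_Icc_self hp.1, Ico_subset_Icc_self hp.2.1, Ico_subset_Icc_self hp.2.2⟩
  have hms : ∀ t, MeasurableSet {p : ℝ × ℝ × ℝ | quad a p < t} := fun t =>
    (isOpen_lt (continuous_quad a) continuous_const).measurableSet
  set D := ∫ p in {p | quad a p < s} ∩ cube, divg φ p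
  have key : ∀ u, s < u → u < 1 / 4 → D ≤ (2 * Real.sqrt u + (u - s) * M) *
      slope (fun t => vol {p | quad a p < t}) s u := by
    intro u hsu hu
    set I : ℝ → ℝ × ℝ × ℝ → ℝ := fun t => {p | quad a p < t}.indicator fun _ => (1 : ℝ)
    have iI : ∀ t, IntegrableOn (I t) cube := fun t =>
      (integrableOn_cube_of_continuous continuous_const).indicator (hms t)
    have hI : ∀ t, ∫ p in cube, I t p = vol {p | quad a p < t} := fun t => by
      simp only [I]
      rw [integral_indicator_const _ (hms t), smul_eq_mul, mul_one, measureReal_def,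
        Measure.restrict_apply (hms t)]
      rfl
    have iG := fun t => integrableOn_level_ite (continuous_radial h a) a t
    have hG : ∀ t, t < 1 / 4 → ∫ p in cube, (if quad a p < t then radial a φ p else 0) =
        ∫ p in cube, max (t - quad a p) 0 * divg φ p := fun t ht => (integral_cut_divg h ha ht).symm
    have iM : ∀ t, IntegrableOn (fun p => max (t - quad a p) 0 * divg φ p) cube := fun t =>
      integrableOn_cube_of_continuous (((continuous_const.sub (continuous_quad a)).max
        continuous_const).mul h.continuous_divg)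
    have iD := integrableOn_level_ite h.continuous_divg a s
    have hD : D = ∫ p in cube, if quad a p < s then divg φ p else 0 := by
      simp only [D]
      rw [← Measure.restrict_restrict (hms s), ← integral_indicator (hms s)]
      refine integral_congr_ae (Eventually.of_forall fun p => ?_)
      by_cases hp : quad a p < s <;> simp [hp]
    have low : ∫ p in cube, ((u - s) * (if quad a p < s then divg φ p else 0) -
        (u - s) * M * (I u p - I s p)) ≤
        ∫ p in cube, (max (u - quad a p) 0 * divg φ p - max (s - quad a p) 0 * divg φ p) := by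
      refine setIntegral_mono_on ((iD.const_mul _).sub (((iI u).sub (iI s)).const_mul _))
        ((iM u).sub (iM s)) measurableSet_cube fun p hp => ?_
      obtain ⟨b1, b2⟩ := abs_le.1 (hM' p hp)
      simp only [I, Set.indicator_apply, mem_ofPred_eq]
      by_cases hq : quad a p < s
      · rw [if_pos hq, if_pos (hq.trans hsu), if_pos hq, max_eq_left (by linarith),
          max_eq_left (by linarith)]
        ring_nf; exact le_rfl
      rw [not_lt] at hq
      by_cases hq' : quad a p < u
      · rw [if_neg (not_lt.2 hq), if_pos hq', if_neg (not_lt.2 hq), max_eq_left (by linarith),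
          max_eq_right (by linarith)]
        nlinarith [mul_nonneg (sub_pos.2 hq').le (sub_nonneg.2 (b1 : -M ≤ divg φ p)),
          mul_nonneg (sub_nonneg.2 hq) (show 0 ≤ M by linarith)]
      · rw [if_neg (not_lt.2 hq), if_neg hq', if_neg (not_lt.2 hq), max_eq_right (by linarith),
          max_eq_right (by linarith [not_lt.1 hq'])]
        simp
    have high : ∫ p in cube, ((if quad a p < u then radial a φ p else 0) -
        if quad a p < s then radial a φ p else 0) ≤
        ∫ p in cube, 2 * Real.sqrt u * (I u p - I s p) := by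
      refine setIntegral_mono_on ((iG u).sub (iG s)) (((iI u).sub (iI s)).const_mul _)
        measurableSet_cube fun p _ => ?_
      simp only [I, Set.indicator_apply, mem_ofPred_eq]
      by_cases hq : quad a p < s
      · simp [hq, hq.trans hsu]
      by_cases hq' : quad a p < u
      · simp only [if_pos hq', if_neg hq, sub_zero, mul_one]
        exact ((le_abs_self _).trans (abs_radial_le h ha p)).trans
          (mul_le_mul_of_nonneg_left (Real.sqrt_le_sqrt hq'.le) zero_le_two)
      · simp [hq, hq']
    rw [integral_sub (iG u) (iG s), hG u hu, hG s hs4, integral_const_mul,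
      integral_sub (iI u) (iI s), hI, hI, ← integral_sub (iM u) (iM s)] at high
    rw [integral_sub (iD.const_mul _) (Integrable.const_mul (f := fun p => I u p - I s p)
      ((iI u).sub (iI s)) _), integral_const_mul, ← hD] at low
    simp only [integral_const_mul] at low
    rw [integral_sub (iI u) (iI s), hI, hI] at low
    have hfin := low.trans high
    rw [slope_def_field, mul_div_assoc', le_div_iff₀ (sub_pos.2 hsu)]
    linarith
  have lim : Tendsto (fun u => (2 * Real.sqrt u + (u - s) * M) *
      slope (fun t => vol {p | quad a p < t}) s u) (𝓝[>] s)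
      (𝓝 ((2 * Real.sqrt s + (s - s) * M) * W)) := by
    refine Tendsto.mul ?_ ((hasDerivWithinAt_iff_tendsto_slope' (lt_irrefl s)).1 hW)
    exact (((continuous_const.mul Real.continuous_sqrt).add
      ((continuous_id.sub continuous_const).mul continuous_const)).tendsto s).mono_left
        nhdsWithin_le_nhds
  rw [sub_self, zero_mul, add_zero] at lim
  refine ge_of_tendsto lim ?_
  filter_upwards [Ioo_mem_nhdsGT hs4] with u hu
  exact key u hu.1 hu.2

end

end Vale.Agent.P232
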