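import Vale.Agent.P232.Compl.Slice

/-! # P232: volumes of tubes and balls inside the cube -/

namespace Vale.Agent.P232

noncomputable section

open MeasureTheory Set

/-- The squared distance from the centre, with the first coordinate weighted by `a`. -/
def quad (a : ℝ) (p : ℝ × ℝ × ℝ) : ℝ :=
  a * (p.1 - 1 / 2) ^ 2 + ((p.2.1 - 1 / 2) ^ 2 + (p.2.2 - 1 / 2) ^ 2)

lemma continuous_quad (a : ℝ) : Continuous (quad a) := by unfold quad; fun_prop

/-- A planar disc of squared radius `t`, centred at the middle of the unit square. -/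
def disc (t : ℝ) : Set (ℝ × ℝ) := {q | (q.1 - 1 / 2) ^ 2 + (q.2 - 1 / 2) ^ 2 < t}

lemma measurableSet_disc (t : ℝ) : MeasurableSet (disc t) :=
  (isOpen_lt (by fun_prop) continuous_const).measurableSet

lemma volume_disc (t : ℝ) : volume (disc t) = ENNReal.ofReal (Real.pi * max t 0) := by
  rcases le_or_gt t 0 with ht | ht
  · have : disc t = ∅ := eq_empty_iff_forall_notMem.2 fun q (hq : _ < t) => by
      nlinarith [sq_nonneg (q.1 - 1 / 2), sq_nonneg (q.2 - 1 / 2)]
    simp [this, max_eq_right ht]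
  · have e : Complex.measurableEquivRealProd ⁻¹' disc t =
        Metric.ball (⟨1 / 2, 1 / 2⟩ : ℂ) (Real.sqrt t) := by
      ext z
      rw [Metric.mem_ball, Complex.dist_eq, Complex.norm_def, Real.sqrt_lt_sqrt_iff
        (Complex.normSq_nonneg _)]
      simp [disc, Complex.measurableEquivRealProd_apply, Complex.normSq_apply, pow_two]
    rw [← Complex.volume_preserving_equiv_real_prod.measure_preimage
      (measurableSet_disc t).nullMeasurableSet, e, Complex.volume_ball, max_eq_left ht.le]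
    rw [← ENNReal.ofReal_pow (Real.sqrt_nonneg _), Real.sq_sqrt ht.le,
      show (↑NNReal.pi : ENNReal) = ENNReal.ofReal Real.pi from
        (ENNReal.ofReal_coe_nnreal (p := NNReal.pi)).symm, ← ENNReal.ofReal_mul ht.le, mul_comm]

lemma disc_subset {t : ℝ} (ht : t < 1 / 4) :
    disc t ⊆ Ico (0 : ℝ) 1 ×ˢ Ico (0 : ℝ) 1 := fun q (hq : _ < t) => by
  have h1 : (q.1 - 1 / 2) ^ 2 < 1 / 4 := by nlinarith [sq_nonneg (q.2 - 1 / 2)]
  have h2 : (q.2 - 1 / 2) ^ 2 < 1 / 4 := by nlinarith [sq_nonneg (q.1 - 1 / 2)]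
  exact ⟨⟨by nlinarith, by nlinarith⟩, ⟨by nlinarith, by nlinarith⟩⟩

lemma vol_level_tube {t : ℝ} (h0 : 0 ≤ t) (ht : t < 1 / 4) :
    vol {p | quad 0 p < t} = Real.pi * t := by
  have e : {p : ℝ × ℝ × ℝ | quad 0 p < t} ∩ cube = Ico (0 : ℝ) 1 ×ˢ disc t := by
    ext ⟨x, q⟩
    simp only [quad, cube, disc, mem_inter_iff, mem_ofPred_eq, mem_prod, zero_mul, zero_add]
    exact ⟨fun h => ⟨h.2.1, h.1⟩, fun h => ⟨h.2, h.1, disc_subset ht h.2⟩⟩
  rw [vol, e, Measure.volume_eq_prod, Measure.prod_prod, Real.volume_Ico, volume_disc]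
  rw [sub_zero, ENNReal.ofReal_one, one_mul, ENNReal.toReal_ofReal (by positivity),
    max_eq_left h0]

lemma vol_level_ball {t : ℝ} (h0 : 0 ≤ t) (ht : t < 1 / 4) :
    vol {p | quad 1 p < t} = 4 / 3 * Real.pi * (t * Real.sqrt t) := by
  set S : Set (ℝ × ℝ × ℝ) := {p | quad 1 p < t}
  have hsub : S ∩ cube = S := inter_eq_left.2 fun p (hp : _ < t) => by
    have h1 : (p.1 - 1 / 2) ^ 2 < 1 / 4 := by
      simp only [quad, one_mul] at hp
      nlinarith [sq_nonneg (p.2.1 - 1 / 2), sq_nonneg (p.2.2 - 1 / 2)]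
    refine ⟨⟨by nlinarith, by nlinarith⟩, disc_subset ht ?_⟩
    show _ < t
    simp only [quad, one_mul] at hp
    nlinarith [sq_nonneg (p.1 - 1 / 2)]
  have hS : MeasurableSet S := (isOpen_lt (continuous_quad 1) continuous_const).measurableSet
  have hsl : ∀ x : ℝ, Prod.mk x ⁻¹' S = disc (t - (x - 1 / 2) ^ 2) := fun x => by
    ext q
    simp only [S, quad, disc, mem_preimage, mem_ofPred_eq, one_mul]
    constructor <;> intro h <;> linarith
  set R := Real.sqrt t
  have hR : R ^ 2 = t := Real.sq_sqrt h0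
  have hR0 : 0 ≤ R := Real.sqrt_nonneg t
  have hzero : ∀ x : ℝ, x ∉ Ioc (1 / 2 - R) (1 / 2 + R) →
      Real.pi * max (t - (x - 1 / 2) ^ 2) 0 = 0 := fun x hx => by
    have : R ^ 2 ≤ (x - 1 / 2) ^ 2 := by
      rw [mem_Ioc, not_and_or, not_lt, not_le] at hx
      rcases hx with hx | hx <;> nlinarith
    rw [max_eq_right (by linarith), mul_zero]
  have hc : Continuous fun x : ℝ => Real.pi * max (t - (x - 1 / 2) ^ 2) 0 := by fun_prop
  have hint : Integrable fun x : ℝ => Real.pi * max (t - (x - 1 / 2) ^ 2) 0 :=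
    ((integrableOn_iff_integrable_of_support_subset (fun x hx => by
      by_contra h
      exact hx (hzero x h))).1 (hc.integrableOn_Ioc (a := 1 / 2 - R) (b := 1 / 2 + R)))
  have hv : volume S = ∫⁻ x : ℝ, ENNReal.ofReal (Real.pi * max (t - (x - 1 / 2) ^ 2) 0) := by
    rw [Measure.volume_eq_prod, Measure.prod_apply hS]
    simp only [hsl, volume_disc]
  rw [vol, hsub, hv, ← ofReal_integral_eq_lintegral_ofReal hint
    (Filter.Eventually.of_forall fun x => by positivity),
    ENNReal.toReal_ofReal (integral_nonneg fun x => by positivity),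
    ← setIntegral_eq_integral_of_forall_compl_eq_zero hzero,
    ← intervalIntegral.integral_of_le (by linarith),
    intervalIntegral.integral_congr (g := fun x => Real.pi * (t - (x - 1 / 2) ^ 2)) fun x hx => ?_]
  · rw [intervalIntegral.integral_const_mul,
      intervalIntegral.integral_comp_sub_right (fun y => t - y ^ 2),
      intervalIntegral.integral_sub (continuous_const.intervalIntegrable _ _)
        ((continuous_pow 2).intervalIntegrable _ _),
      intervalIntegral.integral_const, integral_pow]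
    simp only [smul_eq_mul, show (1 / 2 : ℝ) + R - 1 / 2 = R by ring,
      show (1 / 2 : ℝ) - R - 1 / 2 = -R by ring]
    rw [← hR]
    norm_num
    ring
  · rw [uIcc_of_le (by linarith)] at hx
    dsimp only
    rw [max_eq_left]
    nlinarith [hx.1, hx.2]

end

end Vale.Agent.P232
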